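import Vale.Agent.P204.M.Pt
import Vale.Agent.P204.Defs2
import Vale.Agent.P204.Jet2

/-!
P204 M/At: the abstract atlas of a finite family of charts.
-/

namespace Vale.Agent.P204.M

open scoped Manifold ContDiff Topology
open Metric Set Filter Function

noncomputable section

variable {X : Type*} [TopologicalSpace X] [ChartedSpace E X]

/-- a finite family of good charts with a partition of unity -/
structure Fam (J : X → End) (T : X → Bil) where
  n : ℕ
  npos : 0 < n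
  φ : Fin n → Ch X
  ch : ∀ j, IsCh (φ j)
  tgt : ∀ j, (φ j).target = ball 0 4
  pos : ∀ j, ∀ z ∈ ball (0 : E) 4, 0 < ori (φ j) J T z
  ρ : Fin n → X → ℝ
  ρ_smooth : ∀ j, ContMDiff I4 𝓘(ℝ, ℝ) ∞ (ρ j)
  ρ_nonneg : ∀ j x, 0 ≤ ρ j x
  ρ_le : ∀ j x, ρ j x ≤ 1
  ρ_sum : ∀ x, ∑ j, ρ j x = 1
  ρ_supp : ∀ j x, ρ j x ≠ 0 → x ∈ (φ j).source ∧ φ j x ∈ closedBall (0 : E) 1

theorem exists_fam [IsManifold I4 ∞ X] [T2Space X] [CompactSpace X] [Nonempty X] {J : X → End}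
    {T : X → Bil} (hJ : ∀ x v, J x (J x v) = -v) (hT : ∀ x, IsAlt (T x))
    (ht : ∀ x v, v ≠ 0 → 0 < T x v (J x v)) (gJ : ∀ x, GJ J x) (gT : ∀ x, GT T x) :
    Nonempty (Fam J T) := by
  choose ψ h1 h2 h3 h4 using exists_nice hJ hT ht gJ gT
  have ho : ∀ x, IsOpen ((ψ x).source ∩ ψ x ⁻¹' ball 0 1) := fun x =>
    (ψ x).isOpen_inter_preimage isOpen_ball
  obtain ⟨t, ht⟩ := isCompact_univ.elim_finite_subcover _ ho fun x _ => by
    have h0 : (0 : E) ∈ (ψ x).target := by rw [h2]; exact mem_ball_self (by norm_num)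
    have h5 := (ψ x).right_inv h0
    have h6 := (ψ x).map_target h0
    rw [h3 x] at h5 h6
    refine mem_iUnion.2 ⟨x, h6, ?_⟩
    rw [mem_preimage, h5]
    exact mem_ball_self one_pos
  obtain ⟨a, ha⟩ : ∃ a : Fin t.card → X, ∀ x ∈ t, ∃ j, a j = x :=
    ⟨fun j => (t.equivFin.symm j : X), fun x hx => ⟨t.equivFin ⟨x, hx⟩, by simp⟩⟩
  have hc : ∀ x : X, ∃ j, x ∈ (ψ (a j)).source ∩ ψ (a j) ⁻¹' ball 0 1 := fun x => by
    obtain ⟨y, hy, hx⟩ := mem_iUnion₂.1 (ht (mem_univ x))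
    obtain ⟨j, rfl⟩ := ha y hy
    exact ⟨j, hx⟩
  obtain ⟨f, hf⟩ := SmoothPartitionOfUnity.exists_isSubordinate I4 isClosed_univ _
    (fun j => ho (a j)) fun x _ => mem_iUnion.2 (hc x)
  obtain ⟨j₀, -⟩ := hc (Classical.arbitrary X)
  refine ⟨⟨t.card, j₀.pos, fun j => ψ (a j), fun j => h1 _, fun j => h2 _, fun j => h4 _,
    fun j => f j, fun j => (f j).contMDiff, f.nonneg, f.le_one, fun x => ?_, fun j x hx => ?_⟩⟩
  · rw [← finsum_eq_sum_of_fintype]
    exact f.sum_eq_one (mem_univ x)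
  · have h5 := hf j (subset_tsupport _ hx)
    exact ⟨h5.1, ball_subset_closedBall h5.2⟩

namespace Fam

variable {J : X → End} {T : X → Bil} (F : Fam J T)

theorem mem {j : Fin F.n} {p : E} (hp : p ∈ ball (0 : E) 4) : p ∈ (F.φ j).target :=
  (F.tgt j).symm ▸ hp

theorem map_mem {j : Fin F.n} {x : X} (hx : x ∈ (F.φ j).source) : F.φ j x ∈ ball (0 : E) 4 :=
  F.tgt j ▸ (F.φ j).map_source hx

theorem cover (x : X) : ∃ j, x ∈ (F.φ j).source ∧ F.φ j x ∈ closedBall (0 : E) 1 := by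
  have h : ∑ j, F.ρ j x ≠ 0 := by rw [F.ρ_sum]; exact one_ne_zero
  obtain ⟨j, -, hj⟩ := Finset.exists_ne_zero_of_sum_ne_zero h
  exact ⟨j, F.ρ_supp j x hj⟩

def O (i j : Fin F.n) : Set E := ball 0 4 ∩ (F.φ i).symm ⁻¹' (F.φ j).source

def τ (i j : Fin F.n) : E → E := F.φ j ∘ (F.φ i).symm

def chi (j : Fin F.n) : E → ℝ := (ball (0 : E) 4).indicator fun p => F.ρ j ((F.φ j).symm p)

def Om (j : Fin F.n) : E → Bil := (ball (0 : E) 4).indicator (trep (F.φ j) T)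

theorem symm_τ {i j : Fin F.n} {p : E} (hp : p ∈ F.O i j) :
    (F.φ j).symm (F.τ i j p) = (F.φ i).symm p := (F.φ j).left_inv hp.2

theorem τ_mem {i j : Fin F.n} {p : E} (hp : p ∈ F.O i j) : F.τ i j p ∈ ball (0 : E) 4 :=
  F.map_mem hp.2

theorem haus [T2Space X] (i j : Fin F.n) (r r' : ℝ) (hr : r < 4) (hr' : r' < 4) :
    IsClosed {p : E | p ∈ closedBall (0 : E) r ∧ p ∈ F.O i j ∧ F.τ i j p ∈ closedBall (0 : E) r'} := by
  have h1 : closedBall (0 : E) r ⊆ (F.φ i).target := fun p hp =>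
    F.mem (closedBall_subset_ball hr hp)
  have h2 : closedBall (0 : E) r' ⊆ (F.φ j).target := fun p hp =>
    F.mem (closedBall_subset_ball hr' hp)
  have h3 := ((F.φ i).continuousOn_symm.mono h1).preimage_isClosed_of_isClosed isClosed_closedBall
    ((isCompact_closedBall (0 : E) r').image_of_continuousOn
      ((F.φ j).continuousOn_symm.mono h2)).isClosed
  have e : {p : E | p ∈ closedBall (0 : E) r ∧ p ∈ F.O i j ∧ F.τ i j p ∈ closedBall (0 : E) r'} =
      closedBall 0 r ∩ (F.φ i).symm ⁻¹' ((F.φ j).symm '' closedBall 0 r') := by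
    ext p
    refine ⟨fun hp => ⟨hp.1, _, hp.2.2, F.symm_τ hp.2.1⟩, fun ⟨hp, q, hq, hpq⟩ => ⟨hp,
      ⟨closedBall_subset_ball hr hp, ?_⟩, ?_⟩⟩
    · rw [mem_preimage, ← hpq]
      exact (F.φ j).map_target (h2 hq)
    · rw [τ, comp_apply, ← hpq, (F.φ j).right_inv (h2 hq)]
      exact hq
  rw [e]
  exact h3

theorem chi_supp (j : Fin F.n) : Supp 1 (F.chi j) := by
  refine supp_of_contDiffOn isOpen_ball (U := ball 0 4) ?_ (closedBall_subset_ball (by norm_num))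
    fun p hp => ?_
  · refine ContDiffOn.congr (f := F.ρ j ∘ (F.φ j).symm) ?_ fun p hp => indicator_of_mem hp _
    rw [← F.tgt j]
    exact contMDiffOn_iff_contDiffOn.1 ((F.ρ_smooth j).comp_contMDiffOn
      (contMDiffOn_symm_of_mem_maximalAtlas (F.ch j)))
  · by_cases h4 : p ∈ ball (0 : E) 4
    · rw [chi, indicator_of_mem h4]
      by_contra h
      have h1 := (F.ρ_supp j _ h).2
      rw [(F.φ j).right_inv (F.mem h4)] at h1
      exact hp h1
    · exact indicator_of_notMem h4 _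

theorem chi_sum (i : Fin F.n) (p : E) (hp : p ∈ ball (0 : E) 4) :
    ∑ j, (F.O i j).indicator (fun q => F.chi j (F.τ i j q)) p = 1 := by
  rw [← F.ρ_sum ((F.φ i).symm p)]
  refine Finset.sum_congr rfl fun j _ => ?_
  by_cases h : p ∈ F.O i j
  · rw [indicator_of_mem h, chi, indicator_of_mem (F.τ_mem h), F.symm_τ h]
  · rw [indicator_of_notMem h]
    by_contra h1
    exact h ⟨hp, (F.ρ_supp j _ (Ne.symm h1)).1⟩

theorem Om_ev (j : Fin F.n) {p : E} (hp : p ∈ ball (0 : E) 4) : F.Om j =ᶠ[𝓝 p] trep (F.φ j) T :=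
  Filter.eventually_of_mem (isOpen_ball.mem_nhds hp) fun _ hq => indicator_of_mem hq _

/-- the abstract atlas -/
def atlas [T2Space X] (hJ : ∀ x v, J x (J x v) = -v) (hT : ∀ x, IsAlt (T x))
    (ht : ∀ x v, v ≠ 0 → 0 < T x v (J x v)) (gJ : ∀ x, GJ J x) (gT : ∀ x, GT T x) : Atlas where
  n := F.n
  npos := F.npos
  O := F.O
  τ := F.τ
  isOpen_O i j := by
    rw [O, ← F.tgt i]
    exact (F.φ i).isOpen_inter_preimage_symm (F.φ j).open_source
  O_sub _ _ := inter_subset_left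
  O_self i := inter_eq_left.2 fun _ hp => (F.φ i).map_target (F.mem hp)
  τ_self i _ hp := (F.φ i).right_inv (F.mem hp)
  τ_smooth i j _ hp := ((F.ch j).trans_smooth (F.ch i) (F.mem hp.1) hp.2).contDiffWithinAt
  maps i j p hp := ⟨F.map_mem hp.2, by
    rw [mem_preimage, F.symm_τ hp]
    exact (F.φ i).map_target (F.mem hp.1)⟩
  cocycle i j l p hp hq := ⟨⟨hp.1, by
    rw [mem_preimage, ← F.symm_τ hp]
    exact hq.2⟩, congrArg (F.φ l) (F.symm_τ hp)⟩
  haus := F.haus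
  cover i p hp := by
    obtain ⟨j, h1, h2⟩ := F.cover ((F.φ i).symm p)
    exact ⟨j, ⟨hp, h1⟩, h2⟩
  chi := F.chi
  chi_supp := F.chi_supp
  chi_nonneg j p := indicator_nonneg (fun _ _ => F.ρ_nonneg _ _) p
  chi_le j p := indicator_apply_le' (fun _ => F.ρ_le _ _) fun _ => zero_le_one
  chi_sum := F.chi_sum
  J j := jrep (F.φ j) J
  J_smooth j _ hp := (GJ.all (F.ch j) (F.mem hp) (gJ _)).contDiffWithinAt
  J_sq j _ hp := jrep_sq hJ (F.ch j) (F.mem hp)
  J_compat i j _ hp := jrep_trans (F.ch j) (F.ch i) J (F.mem hp.1) hp.2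
  Ω := F.Om
  Ω_smooth j _ hp :=
    ((GT.all hT (F.ch j) (F.mem hp) (gT _)).1.congr_of_eventuallyEq (F.Om_ev j hp)).contDiffWithinAt
  Ω_alt j p := by
    by_cases hp : p ∈ ball (0 : E) 4
    · rw [Om, indicator_of_mem hp]
      exact trep_alt hT _ _
    · rw [Om, indicator_of_notMem hp]
      exact fun u v => by simp
  Ω_zero _ _ hp := indicator_of_notMem hp _
  Ω_compat i j p hp := by
    rw [Om, Om, indicator_of_mem hp.1, indicator_of_mem (F.τ_mem hp)]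
    exact trep_trans (F.ch j) (F.ch i) T (F.mem hp.1) hp.2
  Ω_closed j _ hp := (GT.all hT (F.ch j) (F.mem hp) (gT _)).2.congr (F.Om_ev j hp)
  Ω_tame j p hp v hv := by
    rw [Om, indicator_of_mem hp]
    exact trep_tame ht (F.ch j) (F.mem hp) hv
  orient j p hp := by
    rw [Om, indicator_of_mem hp]
    exact F.pos j p hp

/-- back from a compatible family to a field on the manifold -/
theorem back (β : Fin F.n → E → Bil)
    (hβ : ∀ i j, ∀ p ∈ F.O i j, β i p = pullL (fderiv ℝ (F.τ i j) p) (β j (F.τ i j p))) :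
    ∃ S : X → Bil, ∀ i, ∀ p ∈ ball (0 : E) 4, trep (F.φ i) S p = β i p := by
  choose j hj _ using F.cover
  refine ⟨fun x => pullL (dM (F.φ (j x)) x) (β (j x) (F.φ (j x) x)), fun i p hp => ?_⟩
  rw [trep, pullL_comp, hβ i (j ((F.φ i).symm p)) p ⟨hp, hj _⟩, τ,
    fderiv_trans (F.ch _) (F.ch i) (F.mem hp) (hj _)]
  rfl

end Fam

end

end Vale.Agent.P204.M
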