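import Vale.Agent.P204.Alg2
import Vale.Agent.P204.Cal

/-!
P204 M/Ch: charts of the maximal atlas, tensor fields read in a chart.
-/

namespace Vale.Agent.P204.M

open scoped Manifold ContDiff Topology
open Metric Set Filter Function

noncomputable section

abbrev I4 : ModelWithCorners ℝ E E := 𝓘(ℝ, E)

abbrev Ch (X : Type*) [TopologicalSpace X] := OpenPartialHomeomorph X E

variable {X : Type*} [TopologicalSpace X] [ChartedSpace E X]

/-- charts of the maximal smooth atlas -/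
def IsCh (φ : Ch X) : Prop := φ ∈ IsManifold.maximalAtlas I4 ∞ X

/-- the differential of a chart -/
def dM (φ : Ch X) (x : X) : End := mfderiv I4 I4 φ x

/-- the differential of the inverse chart -/
def dS (φ : Ch X) (p : E) : End := mfderiv I4 I4 φ.symm p

/-- a field of bilinear forms read in a chart -/
def trep (φ : Ch X) (T : X → Bil) (p : E) : Bil := pullL (dS φ p) (T (φ.symm p))

/-- a field of endomorphisms read in a chart -/
def jrep (φ : Ch X) (J : X → End) (p : E) : End :=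
  (dM φ (φ.symm p)).comp ((J (φ.symm p)).comp (dS φ p))

/-- the orientation density -/
def ori (φ : Ch X) (J : X → End) (T : X → Bil) (p : E) : ℝ :=
  WL (pp (jrep φ J p) (trep φ T p)) (pp (jrep φ J p) (trep φ T p))

theorem isCh_chartAt [IsManifold I4 ∞ X] (x : X) : IsCh (chartAt E x) :=
  IsManifold.chart_mem_maximalAtlas x

theorem IsCh.trans_smooth {φ ψ : Ch X} (hφ : IsCh φ) (hψ : IsCh ψ) {z : E}
    (hz : z ∈ ψ.target) (hz' : ψ.symm z ∈ φ.source) : ContDiffAt ℝ ∞ (φ ∘ ψ.symm) z :=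
  contMDiffAt_iff_contDiffAt.1 ((contMDiffAt_of_mem_maximalAtlas hφ hz').comp z
    (contMDiffAt_symm_of_mem_maximalAtlas hψ hz))

theorem fderiv_trans {φ ψ : Ch X} (hφ : IsCh φ) (hψ : IsCh ψ) {z : E}
    (hz : z ∈ ψ.target) (hz' : ψ.symm z ∈ φ.source) :
    fderiv ℝ (φ ∘ ψ.symm) z = (dM φ (ψ.symm z)).comp (dS ψ z) := by
  rw [← mfderiv_eq_fderiv]
  exact mfderiv_comp z ((contMDiffAt_of_mem_maximalAtlas hφ hz').mdifferentiableAt (by simp))
    ((contMDiffAt_symm_of_mem_maximalAtlas hψ hz).mdifferentiableAt (by simp))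

theorem dS_dM {φ : Ch X} (hφ : IsCh φ) {x : X} (hx : x ∈ φ.source) (v : E) :
    dS φ (φ x) (dM φ x v) = v := by
  have h1 := mfderiv_comp x
    ((contMDiffAt_symm_of_mem_maximalAtlas hφ (φ.map_source hx)).mdifferentiableAt (by simp))
    ((contMDiffAt_of_mem_maximalAtlas hφ hx).mdifferentiableAt (by simp))
  have h2 : φ.symm ∘ φ =ᶠ[𝓝 x] id := by
    filter_upwards [φ.open_source.mem_nhds hx] with q hq
    exact φ.left_inv hq
  rw [h2.mfderiv_eq, mfderiv_id] at h1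
  exact (congrArg (fun L => L v) h1).symm

theorem dM_dS {φ : Ch X} (hφ : IsCh φ) {p : E} (hp : p ∈ φ.target) (v : E) :
    dM φ (φ.symm p) (dS φ p v) = v := by
  have h1 := fderiv_trans hφ hφ hp (φ.map_target hp)
  have h2 : φ ∘ φ.symm =ᶠ[𝓝 p] id := by
    filter_upwards [φ.open_target.mem_nhds hp] with q hq
    exact φ.right_inv hq
  rw [h2.fderiv_eq, fderiv_id] at h1
  exact (congrArg (fun L => L v) h1).symm

theorem dS_dM' {φ : Ch X} (hφ : IsCh φ) {p : E} (hp : p ∈ φ.target) (v : E) :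
    dS φ p (dM φ (φ.symm p) v) = v := by
  have h := dS_dM hφ (φ.map_target hp) v
  rwa [φ.right_inv hp] at h

theorem diffeo_ch [IsManifold I4 ∞ X] {φ : Ch X} (hφ : IsCh φ) (e : OpenPartialHomeomorph E E)
    (he : ContDiffOn ℝ ∞ e e.source) (he' : ContDiffOn ℝ ∞ e.symm e.target) :
    IsCh (φ.trans e) := by
  refine (φ.trans e).mem_maximalAtlas_of_contMDiffOn ?_ ?_
  · exact he.contMDiffOn.comp' (contMDiffOn_of_mem_maximalAtlas hφ)
  · exact (contMDiffOn_symm_of_mem_maximalAtlas hφ).comp' he'.contMDiffOn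

omit [ChartedSpace E X] in
theorem ev_src {φ ψ : Ch X} {z : E} (hz : z ∈ ψ.target) (hz' : ψ.symm z ∈ φ.source) :
    ∀ᶠ x in 𝓝 z, x ∈ ψ.target ∧ ψ.symm x ∈ φ.source :=
  Filter.Eventually.and (ψ.open_target.mem_nhds hz)
    ((ψ.continuousAt_symm hz).eventually (φ.open_source.mem_nhds hz'))

theorem dS_trans {φ ψ : Ch X} (hφ : IsCh φ) (hψ : IsCh ψ) {z : E}
    (hz : z ∈ ψ.target) (hz' : ψ.symm z ∈ φ.source) (v : E) :
    dS φ (φ (ψ.symm z)) (fderiv ℝ (φ ∘ ψ.symm) z v) = dS ψ z v := by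
  rw [fderiv_trans hφ hψ hz hz', ContinuousLinearMap.comp_apply, dS_dM hφ hz']

theorem trep_trans {φ ψ : Ch X} (hφ : IsCh φ) (hψ : IsCh ψ) (T : X → Bil) {z : E}
    (hz : z ∈ ψ.target) (hz' : ψ.symm z ∈ φ.source) :
    trep ψ T z = pullL (fderiv ℝ (φ ∘ ψ.symm) z) (trep φ T ((φ ∘ ψ.symm) z)) := by
  ext u v
  simp only [trep, pullL_apply, comp_apply, dS_trans hφ hψ hz hz', φ.left_inv hz']

theorem jrep_trans {φ ψ : Ch X} (hφ : IsCh φ) (hψ : IsCh ψ) (J : X → End) {z : E}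
    (hz : z ∈ ψ.target) (hz' : ψ.symm z ∈ φ.source) (v : E) :
    fderiv ℝ (φ ∘ ψ.symm) z (jrep ψ J z v) =
      jrep φ J ((φ ∘ ψ.symm) z) (fderiv ℝ (φ ∘ ψ.symm) z v) := by
  simp only [jrep, ContinuousLinearMap.comp_apply, comp_apply, dS_trans hφ hψ hz hz',
    φ.left_inv hz']
  rw [fderiv_trans hφ hψ hz hz', ContinuousLinearMap.comp_apply, dS_dM' hψ hz]

theorem jrep_trans' {φ ψ : Ch X} (hφ : IsCh φ) (hψ : IsCh ψ) (J : X → End) {z : E}
    (hz : z ∈ ψ.target) (hz' : ψ.symm z ∈ φ.source) :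
    jrep ψ J z = (fderiv ℝ (ψ ∘ φ.symm) ((φ ∘ ψ.symm) z)).comp
      ((jrep φ J ((φ ∘ ψ.symm) z)).comp (fderiv ℝ (φ ∘ ψ.symm) z)) := by
  ext1 v
  have h1 : φ.symm (φ (ψ.symm z)) ∈ ψ.source := by
    rw [φ.left_inv hz']
    exact ψ.map_target hz
  simp only [jrep, ContinuousLinearMap.comp_apply, comp_apply, dS_trans hφ hψ hz hz']
  rw [fderiv_trans hψ hφ (φ.map_source hz') h1, ContinuousLinearMap.comp_apply,
    dS_dM' hφ (φ.map_source hz'), φ.left_inv hz']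

theorem trep_alt {T : X → Bil} (hT : ∀ x, IsAlt (T x)) (φ : Ch X) (p : E) :
    IsAlt (trep φ T p) := (hT _).pull _

theorem jrep_sq {J : X → End} (hJ : ∀ x v, J x (J x v) = -v) {φ : Ch X} (hφ : IsCh φ) {p : E}
    (hp : p ∈ φ.target) (v : E) : jrep φ J p (jrep φ J p v) = -v := by
  simp only [jrep, ContinuousLinearMap.comp_apply, dS_dM' hφ hp, hJ, map_neg, dM_dS hφ hp]

theorem trep_tame {J : X → End} {T : X → Bil} (h : ∀ x v, v ≠ 0 → 0 < T x v (J x v)) {φ : Ch X}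
    (hφ : IsCh φ) {p : E} (hp : p ∈ φ.target) {v : E} (hv : v ≠ 0) :
    0 < trep φ T p v (jrep φ J p v) := by
  simp only [trep, jrep, pullL_apply, ContinuousLinearMap.comp_apply, dS_dM' hφ hp]
  refine h _ _ fun h0 => hv ?_
  rw [← dM_dS hφ hp v, h0, map_zero]

theorem ori_trans {φ ψ : Ch X} (hφ : IsCh φ) (hψ : IsCh ψ) (J : X → End) {T : X → Bil}
    (hT : ∀ x, IsAlt (T x)) {z : E} (hz : z ∈ ψ.target) (hz' : ψ.symm z ∈ φ.source) :
    ori ψ J T z = (fderiv ℝ (φ ∘ ψ.symm) z).det * ori φ J T ((φ ∘ ψ.symm) z) := by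
  have e : pp (jrep ψ J z) (trep ψ T z) = pullL (fderiv ℝ (φ ∘ ψ.symm) z)
      (pp (jrep φ J ((φ ∘ ψ.symm) z)) (trep φ T ((φ ∘ ψ.symm) z))) := by
    ext u v
    rw [trep_trans hφ hψ T hz hz']
    simp only [pp_apply, pullL_apply, jrep_trans hφ hψ J hz hz']
  rw [ori, e, WL_pull ((trep_alt hT _ _).pp _) ((trep_alt hT _ _).pp _), ori]

/-- smooth and closed at a point, in one chart -/
def GT (T : X → Bil) (x : X) : Prop :=
  ∃ φ : Ch X, IsCh φ ∧ x ∈ φ.source ∧ ContDiffAt ℝ ∞ (trep φ T) (φ x) ∧ ClosedAt (trep φ T) (φ x)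

/-- smooth at a point, in one chart -/
def GJ (J : X → End) (x : X) : Prop :=
  ∃ φ : Ch X, IsCh φ ∧ x ∈ φ.source ∧ ContDiffAt ℝ ∞ (jrep φ J) (φ x)

theorem GT.all {T : X → Bil} (hT : ∀ x, IsAlt (T x)) {ψ : Ch X} (hψ : IsCh ψ) {z : E}
    (hz : z ∈ ψ.target) (h : GT T (ψ.symm z)) :
    ContDiffAt ℝ ∞ (trep ψ T) z ∧ ClosedAt (trep ψ T) z := by
  obtain ⟨φ, hφ, hz', h1, h2⟩ := h
  have hτ := hφ.trans_smooth hψ hz hz'
  have e : trep ψ T =ᶠ[𝓝 z] fun q =>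
      pullL (fderiv ℝ (φ ∘ ψ.symm) q) (trep φ T ((φ ∘ ψ.symm) q)) := by
    filter_upwards [ev_src hz hz'] with q hq
    exact trep_trans hφ hψ T hq.1 hq.2
  refine ⟨ContDiffAt.congr_of_eventuallyEq ?_ e,
    (closedAt_pull (φ := φ ∘ ψ.symm) h1 hτ (trep_alt hT _ _) h2).congr e⟩
  exact (contDiff_pullL.contDiffAt.comp z (hτ.fderiv_right (by simp))).clm_apply
    (ContDiffAt.comp z (g := trep φ T) h1 hτ)

theorem GJ.all {J : X → End} {ψ : Ch X} (hψ : IsCh ψ) {z : E}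
    (hz : z ∈ ψ.target) (h : GJ J (ψ.symm z)) : ContDiffAt ℝ ∞ (jrep ψ J) z := by
  obtain ⟨φ, hφ, hz', h1⟩ := h
  have hτ := hφ.trans_smooth hψ hz hz'
  have h2 : φ.symm (φ (ψ.symm z)) ∈ ψ.source := by
    rw [φ.left_inv hz']
    exact ψ.map_target hz
  have hσ := hψ.trans_smooth hφ (φ.map_source hz') h2
  have e : jrep ψ J =ᶠ[𝓝 z] fun q => (fderiv ℝ (ψ ∘ φ.symm) ((φ ∘ ψ.symm) q)).comp
      ((jrep φ J ((φ ∘ ψ.symm) q)).comp (fderiv ℝ (φ ∘ ψ.symm) q)) := by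
    filter_upwards [ev_src hz hz'] with q hq
    exact jrep_trans' hφ hψ J hq.1 hq.2
  refine ContDiffAt.congr_of_eventuallyEq ?_ e
  exact (ContDiffAt.comp z (g := fderiv ℝ (ψ ∘ φ.symm)) (hσ.fderiv_right (by simp)) hτ).clm_comp
    ((ContDiffAt.comp z (g := jrep φ J) h1 hτ).clm_comp (hτ.fderiv_right (by simp)))

end

end Vale.Agent.P204.M
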