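import Vale.Agent.P204.M.Ch

/-!
P204 M/Pt: a positively oriented chart with target the ball of radius 4 at each point.
-/

namespace Vale.Agent.P204.M

open scoped Manifold ContDiff Topology
open Metric Set Filter Function

noncomputable section

theorem WL_ne {J : End} {b : Bil} (hJ : ∀ v, J (J v) = -v) (hb : IsAlt b)
    (ht : ∀ v, v ≠ 0 → 0 < b v (J v)) : WL (pp J b) (pp J b) ≠ 0 := by
  intro h0
  have hp : ∀ v, v ≠ 0 → 0 < pp J b v (J v) := fun v hv => by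
    rw [pp_apply, hJ, map_neg, hb (J v) v]
    linarith [ht v hv]
  have he : e 0 ≠ 0 := fun h => by simpa [h] using norm_e 0
  obtain ⟨c, hc, hc0⟩ := Submodule.exists_mem_ne_zero_of_ne_bot
    (LinearMap.ker_ne_bot_of_finrank_lt
      (f := LinearMap.prod (pp J b (e 0) : E →ₗ[ℝ] ℝ) (pp J b (J (e 0)) : E →ₗ[ℝ] ℝ)) (by simp))
  rw [LinearMap.mem_ker, Prod.ext_iff] at hc
  have h1 : pp J b (e 0) c = 0 := hc.1
  have h2 : pp J b (J (e 0)) c = 0 := hc.2
  have h3 := WL_det (hb.pp J) (hb.pp J) (e 0) (J (e 0)) c (J c)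
  rw [h0, h1, h2] at h3
  nlinarith [mul_pos (hp _ he) (hp _ hc0)]

theorem exists_lin {s r : ℝ} (hs : s ≠ 0) (hr : 0 < r) :
    ∃ A : E ≃L[ℝ] E, (∀ z, ‖A z‖ ≤ r * ‖z‖) ∧ 0 < (A : End).det * s := by
  obtain ⟨R, hR⟩ : ∃ R : E ≃ₗᵢ[ℝ] E, 0 < (R.toContinuousLinearEquiv : End).det * s := by
    rcases lt_or_gt_of_ne hs with h | h
    · refine ⟨(ℝ ∙ e 0)ᗮ.reflection, ?_⟩
      have he : e 0 ≠ 0 := fun h => by simpa [h] using norm_e 0
      have h1 := Submodule.det_reflection (ℝ ∙ e 0)ᗮ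
      rw [Submodule.orthogonal_orthogonal, finrank_span_singleton he, pow_one] at h1
      have h2 : ((ℝ ∙ e 0)ᗮ.reflection.toContinuousLinearEquiv : End).det = -1 := h1
      rw [h2]
      linarith
    · refine ⟨LinearIsometryEquiv.refl ℝ E, ?_⟩
      have h2 : ((LinearIsometryEquiv.refl ℝ E).toContinuousLinearEquiv : End).det = 1 :=
        LinearMap.det_id
      rw [h2, one_mul]
      exact h
  refine ⟨R.toContinuousLinearEquiv.trans
    (ContinuousLinearEquiv.smulLeft (R₁ := ℝ) (M₁ := E) (Units.mk0 r hr.ne')), fun z => ?_, ?_⟩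
  · change ‖r • R z‖ ≤ _
    rw [norm_smul, R.norm_map, Real.norm_of_nonneg hr.le]
  · have h1 : ((R.toContinuousLinearEquiv.trans (ContinuousLinearEquiv.smulLeft (R₁ := ℝ) (M₁ := E)
        (Units.mk0 r hr.ne')) : E ≃L[ℝ] E) : End).det =
        LinearMap.det (r • ((R.toContinuousLinearEquiv : End) : E →ₗ[ℝ] E)) := rfl
    rw [h1, LinearMap.det_smul, mul_assoc]
    exact mul_pos (pow_pos hr _) hR

variable {X : Type*} [TopologicalSpace X] [ChartedSpace E X] [IsManifold I4 ∞ X]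

theorem ball_ch {φ : Ch X} (hφ : IsCh φ) (A : E ≃L[ℝ] E) (b : E)
    (h : ∀ z ∈ ball (0 : E) 4, A z + b ∈ φ.target) :
    ∃ ψ : Ch X, IsCh ψ ∧ ψ.target = ball 0 4 ∧ ∀ z, ψ.symm z = φ.symm (A z + b) := by
  refine ⟨(φ.trans (A.toHomeomorph.trans (Homeomorph.addRight b)).symm.toOpenPartialHomeomorph).trans
    (OpenPartialHomeomorph.ofSet (ball 0 4) isOpen_ball), diffeo_ch (diffeo_ch hφ _ ?_ ?_) _
      contDiffOn_id contDiffOn_id, ?_, fun z => rfl⟩
  · exact (A.symm.contDiff.comp (contDiff_id.add contDiff_const)).contDiffOn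
  · exact (A.contDiff.add contDiff_const).contDiffOn
  · ext z
    exact ⟨fun hz => hz.1, fun hz => ⟨hz, mem_univ _, h z hz⟩⟩

theorem exists_nice {J : X → End} {T : X → Bil} (hJ : ∀ x v, J x (J x v) = -v)
    (hT : ∀ x, IsAlt (T x)) (ht : ∀ x v, v ≠ 0 → 0 < T x v (J x v)) (gJ : ∀ x, GJ J x)
    (gT : ∀ x, GT T x) (x : X) :
    ∃ ψ : Ch X, IsCh ψ ∧ ψ.target = ball 0 4 ∧ ψ.symm 0 = x ∧
      ∀ z ∈ ball (0 : E) 4, 0 < ori ψ J T z := by
  have hφ := isCh_chartAt x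
  generalize hc : chartAt E x = φ at hφ
  have hx : x ∈ φ.source := hc ▸ mem_chart_source E x
  have hx' := φ.map_source hx
  have h0 : ori φ J T (φ x) ≠ 0 :=
    WL_ne (jrep_sq hJ hφ hx') (trep_alt hT _ _) fun v hv => trep_tame ht hφ hx' hv
  have h1 : ContinuousAt (fun p => pp (jrep φ J p) (trep φ T p)) (φ x) :=
    (contDiff_pp.continuous.continuousAt.comp (GJ.all hφ hx' (gJ _)).continuousAt).clm_apply
      (GT.all hT hφ hx' (gT _)).1.continuousAt
  have h2 : ContinuousAt (ori φ J T) (φ x) :=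
    (WL.continuous.continuousAt.comp h1).clm_apply h1
  have h3 : ∀ᶠ p in 𝓝 (φ x), p ∈ φ.target ∧ 0 < ori φ J T (φ x) * ori φ J T p :=
    Filter.Eventually.and (φ.open_target.mem_nhds hx')
      ((continuousAt_const.mul h2).eventually (lt_mem_nhds (mul_self_pos.2 h0)))
  obtain ⟨δ, hδ, h4⟩ := Metric.eventually_nhds_iff.1 h3
  obtain ⟨A, hA, hd⟩ := exists_lin h0 (r := δ / 4) (by positivity)
  have h5 : ∀ z ∈ ball (0 : E) 4, dist (A z + φ x) (φ x) < δ := fun z hz => by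
    rw [dist_eq_norm, add_sub_cancel_right]
    have := mul_lt_mul_of_pos_left (mem_ball_zero_iff.1 hz) (show 0 < δ / 4 by positivity)
    linarith [hA z]
  obtain ⟨ψ, hψ, a1, a2⟩ := ball_ch hφ A (φ x) fun z hz => (h4 (h5 z hz)).1
  refine ⟨ψ, hψ, a1, by rw [a2, map_zero, zero_add, φ.left_inv hx], fun z hz => ?_⟩
  have a3 : ∀ w ∈ ball (0 : E) 4, (φ ∘ ψ.symm) w = A w + φ x := fun w hw => by
    rw [comp_apply, a2, φ.right_inv (h4 (h5 w hw)).1]
  have a4 : φ ∘ ψ.symm =ᶠ[𝓝 z] fun w => A w + φ x :=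
    Filter.eventually_of_mem (isOpen_ball.mem_nhds hz) a3
  rw [ori_trans hφ hψ J hT (a1 ▸ hz) (by rw [a2]; exact φ.map_target (h4 (h5 z hz)).1),
    a4.fderiv_eq, a3 z hz, fderiv_add_const, A.fderiv]
  have a5 := mul_pos hd (h4 (h5 z hz)).2
  have a6 := mul_self_pos.2 h0
  refine (mul_pos_iff_of_pos_left a6).1 ?_
  linarith

end

end Vale.Agent.P204.M
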